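import Vale.Agent.P241GS.PuppeInst
import Vale.Agent.P241GR.I
import Vale.Agent.P241.H585.Api
import Vale.Agent.P251CR.Refl
import Mathlib.CategoryTheory.Action.Monoidal

/-!
# P241G: the input class for the construction of the genuine equivariant stable homotopy category

`GIn G M`: a closed symmetric monoidal category `M` with a functor `jG` from `G`-spaces and a formal
desuspension `F` by the regular representation.  It is a (weak) stabilisation input with
`L = F ⊗ S^{ρ'}`.
-/

open CategoryTheory MonoidalCategory Limits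
open Functor.LaxMonoidal Functor.OplaxMonoidal

noncomputable section

namespace Vale.Agent.P241GA

open P251.G P251.G.LC P251.H P251.St P241.St P241.Geo P241GR

universe v u

section Triv

variable (V : Type u) [Category.{v} V] (G : Type) [Group G]

/-- the trivial action -/
def triv : V ⥤ Action V G where
  obj X := Action.trivial G X
  map f := ⟨f, fun _ => (Category.id_comp _).trans (Category.comp_id _).symm⟩

variable [MonoidalCategory V]

/-- the monoidal structure of `triv` -/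
def trivCore : (triv V G).CoreMonoidal where
  εIso := Action.mkIso (Iso.refl (𝟙_ V)) fun _ => rfl
  μIso X Y := Action.mkIso (Iso.refl (X ⊗ Y)) fun _ =>
    congrArg (· ≫ 𝟙 (X ⊗ Y)) (id_tensorHom_id X Y) |>.trans rfl
  μIso_hom_natural_left f X := Action.hom_ext _ _ (by simp [triv, Action.trivial, Action.mkIso])
  μIso_hom_natural_right X f := Action.hom_ext _ _ (by simp [triv, Action.trivial, Action.mkIso])
  associativity X Y Z := Action.hom_ext _ _ (by simp [triv, Action.trivial, Action.mkIso])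
  left_unitality X := Action.hom_ext _ _ (by simp [triv, Action.trivial, Action.mkIso])
  right_unitality X := Action.hom_ext _ _ (by simp [triv, Action.trivial, Action.mkIso])

instance : (triv V G).Monoidal := (trivCore V G).toMonoidal

theorem triv_ε : (ε (triv V G)).hom = 𝟙 (𝟙_ V) := rfl

theorem triv_η : (η (triv V G)).hom = 𝟙 (𝟙_ V) := rfl

theorem triv_μ (X Y : V) : (μ (triv V G) X Y).hom = 𝟙 (X ⊗ Y) := rfl

theorem triv_δ (X Y : V) : (δ (triv V G) X Y).hom = 𝟙 (X ⊗ Y) := rfl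

instance [BraidedCategory V] : (triv V G).Braided where
  braided X Y := Action.hom_ext _ _
    ((Category.id_comp (β_ X Y).hom).trans (Category.comp_id (β_ X Y).hom).symm)

end Triv

/-- spaces with an action of `G` -/
abbrev LG (G : Type) [Group G] : Type 1 := Action LC G

section Spaces

variable {G : Type} [Group G]

/-- a `G`-space as an object of `LG G` -/
def gl (X : GSpace G) : LG G where
  V := L X
  ρ := { toFun := act X, map_one' := act_one X, map_mul' := act_mul X }

/-- an equivariant map as a morphism of `LG G` -/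
def glMap {X Y : GSpace G} (f : L X ⟶ L Y) (hf : Eqv f) : gl X ⟶ gl Y := ⟨f, hf⟩

theorem eqv_hom {X Y : GSpace G} (f : gl X ⟶ gl Y) : Eqv (X := X) (Y := Y) f.hom := f.comm

/-- products -/
def glProd (X Y : GSpace G) : gl X ⊗ gl Y ≅ gl (X.prod Y) :=
  Action.mkIso (pr X Y) fun g => (pr_act X Y g).symm

/-- trivial actions -/
def glTriv (G : Type) [Group G] (Y : Space) :
    (triv LC G).obj (toLC Y) ≅ gl (GSpace.triv G Y) :=
  Action.mkIso (tr G Y) fun g => by
    change 𝟙 _ ≫ 𝟙 _ = 𝟙 _ ≫ act (GSpace.triv G Y) g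
    rw [act_triv]

/-- a `G`-homeomorphism -/
def glIso {X Y : GSpace G} (e : X.carrier ≃ₜ Y.carrier) (he : ∀ (g : G) x, e (g • x) = g • e x) :
    gl X ≅ gl Y :=
  Action.mkIso (ofHomeo (X := L X) (Y := L Y) e) fun g => LC.hom_ext fun x =>
    congrArg OnePoint.some (he g x)

/-- every object is a `G`-space -/
def glOf (K : LG G) : GSpace G := mkG K.V K.ρ K.ρ.map_one K.ρ.map_mul

/-- every object is a `G`-space -/
def glOfIso (K : LG G) : gl (glOf K) ≅ K :=
  Action.mkIso (Iso.refl K.V) fun g =>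
    congrArg (· ≫ 𝟙 K.V) (act_mkG K.V K.ρ K.ρ.map_one K.ρ.map_mul g) |>.trans
      ((Category.comp_id _).trans (Category.id_comp _).symm)

/-- the orbit `G/H` -/
abbrev orb (H : Subgroup G) : LG G := gl (cell G H 0)

variable (G) [Finite G]

/-- the regular representation -/
abbrev Vg : LG G := gl (P241Z.reg G)

/-- the reduced regular representation -/
abbrev Kb : LG G := gl (redS G)

theorem sum_add_const (t : ℝ) (w : G → ℝ) (hw : ∑ᶠ k, w k = 0) :
    (∑ᶠ k, (t + w k)) / Nat.card G = t := by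
  have := Fintype.ofFinite G
  have h : (Nat.card G : ℝ) ≠ 0 := Nat.cast_ne_zero.mpr Nat.card_pos.ne'
  rw [finsum_eq_sum_of_fintype] at hw ⊢
  rw [Finset.sum_add_distrib, hw, Finset.sum_const, Finset.card_univ, nsmul_eq_mul,
    Nat.card_eq_fintype_card] at *
  field_simp
  ring

theorem sum_sub_mean (x : G → ℝ) : ∑ᶠ k, (x k - (∑ᶠ k, x k) / Nat.card G) = 0 := by
  have := Fintype.ofFinite G
  have h : (Nat.card G : ℝ) ≠ 0 := Nat.cast_ne_zero.mpr Nat.card_pos.ne'
  simp only [finsum_eq_sum_of_fintype]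
  rw [Finset.sum_sub_distrib, Finset.sum_const, Finset.card_univ, nsmul_eq_mul,
    Nat.card_eq_fintype_card] at *
  field_simp
  ring

omit [Group G] in
theorem continuous_mean : Continuous fun x : G → ℝ => (∑ᶠ k, x k) / Nat.card G := by
  have := Fintype.ofFinite G
  simp only [finsum_eq_sum_of_fintype]
  fun_prop

/-- `ρ' ⊕ ℝ = ρ` -/
def eHomeo : {x : G → ℝ | ∑ᶠ k, x k = 0} × ℝ ≃ₜ (G → ℝ) where
  toFun p k := p.2 + p.1.1 k
  invFun x := (⟨fun k => x k - (∑ᶠ k, x k) / Nat.card G, sum_sub_mean G x⟩,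
    (∑ᶠ k, x k) / Nat.card G)
  left_inv p := by
    have h := sum_add_const G p.2 p.1.1 p.1.2
    refine Prod.ext (Subtype.ext (funext fun k => ?_)) h
    change p.2 + p.1.1 k - (∑ᶠ k, (p.2 + p.1.1 k)) / Nat.card G = p.1.1 k
    rw [h, add_sub_cancel_left]
  right_inv x := funext fun k => add_sub_cancel _ _
  continuous_toFun := continuous_pi fun k => continuous_snd.add
    ((continuous_apply k).comp (continuous_subtype_val.comp continuous_fst))
  continuous_invFun := Continuous.prodMk (Continuous.subtype_mk (continuous_pi fun k =>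
    (continuous_apply k).sub (continuous_mean G)) _) (continuous_mean G)

/-- `ρ' ⊕ ℝ = ρ`, `(w, t) ↦ t + w` -/
def eV : Kb G ⊗ (triv LC G).obj RR ≅ Vg G :=
  Action.mkIso (ofHomeo (X := (Kb G).V ⊗ RR) (Y := (Vg G).V) (eHomeo G)) fun _ =>
    LC.tensor_ext fun _ _ => rfl

end Spaces

section

variable {G : Type} [Group G] [Finite G] {M : Type u} [Category.{v} M] [MonoidalCategory M]

/-- the evaluation `F ⊗ j (ρ ⊗ Y) ⟶ j Y` -/
def gev (j : LG G ⥤ M) [j.Monoidal] (F : M) (lam : F ⊗ j.obj (Vg G) ⟶ 𝟙_ M) (Y : LG G) :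
    F ⊗ j.obj (Vg G ⊗ Y) ⟶ j.obj Y :=
  F ◁ δ j (Vg G) Y ≫ (α_ F (j.obj (Vg G)) (j.obj Y)).inv ≫ lam ▷ j.obj Y ≫ (λ_ (j.obj Y)).hom

omit [Finite G] in
/-- `K ↦ F ⊗ (F ⊗ ⋯ ⊗ j K)` -/
def tf (j : LG G ⥤ M) (F : M) : ℕ → LG G ⥤ M
  | 0 => j
  | n + 1 => tf j F n ⋙ tensorLeft F

end

/-- The input of the construction of the genuine stable homotopy category. -/
class GIn (G : outParam Type) [Group G] [Finite G] (M : Type u) [Category.{v} M]
    [MonoidalCategory M] [SymmetricCategory M] [MonoidalClosed M] [HasZeroMorphisms M]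
    [HasColimitsOfSize.{0, 0} M] where
  /-- the `G`-spaces -/
  jG : LG G ⥤ M
  braided : jG.Braided
  full : jG.Full
  isZero_empty : IsZero (jG.obj ((triv LC G).obj (LC.of Empty)))
  pushout {A B C D : LG G} (i : A ⟶ B) (f : A ⟶ C) (g : B ⟶ D) (k : C ⟶ D)
    (hi : Function.Injective (app i.hom)) (h : IsPushout i.hom f.hom g.hom k.hom) :
    IsPushout (jG.map i) (jG.map f) (jG.map g) (jG.map k)
  /-- the formal desuspension by the regular representation -/
  F : M
  /-- the structure map `F ⊗ S^ρ ⟶ 𝟙` -/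
  lamF : F ⊗ jG.obj (Vg G) ⟶ 𝟙_ M
  ev_bij (X : M) (Y : LG G) :
    Function.Bijective fun x : X ⟶ jG.obj (Vg G ⊗ Y) => F ◁ x ≫ gev jG F lamF Y
  rotF : JHomotopic (triv LC G ⋙ jG)
    (lamF ▷ (F ⊗ jG.obj (Vg G)) ≫ (λ_ (F ⊗ jG.obj (Vg G))).hom)
    ((F ⊗ jG.obj (Vg G)) ◁ lamF ≫ (ρ_ (F ⊗ jG.obj (Vg G))).hom)
  fin (n : ℕ) (K : LG G) : FinFactor ((tf jG F n).obj K)

attribute [instance_reducible] GIn.braided
attribute [instance] GIn.braided GIn.full

namespace GIn

variable {G : Type} [Group G] [Finite G] (M : Type u) [Category.{v} M]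
    [MonoidalCategory M] [SymmetricCategory M] [MonoidalClosed M] [HasZeroMorphisms M]
    [HasColimitsOfSize.{0, 0} M] [GIn G M]

/-- the functor from `G`-spaces -/
abbrev JG : LG G ⥤ M := jG

/-- `(F ⊗ S^{ρ'}) ⊗ S^1 ≅ F ⊗ S^ρ` -/
def uIso : ((F : M) ⊗ (JG M).obj (Kb G)) ⊗ (triv LC G ⋙ JG M).obj RR ≅
    (F : M) ⊗ (JG M).obj (Vg G) :=
  α_ _ _ _ ≪≫ whiskerLeftIso F (Functor.Monoidal.μIso (JG M) _ _ ≪≫ (JG M).mapIso (eV G))

instance : GS.StabInput M where
  j := triv LC G ⋙ JG M
  braided := inferInstance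
  isZero_empty := isZero_empty
  pushout i f g k hi h := pushout ((triv LC G).map i) ((triv LC G).map f) ((triv LC G).map g)
    ((triv LC G).map k) hi h
  L := F ⊗ (JG M).obj (Kb G)
  lam := (uIso M).hom ≫ lamF
  rot := by
    have h := P251CR.jhomotopic_conj _ (rotF (M := M)) ((uIso M).hom ⊗ₘ (uIso M).hom) (uIso M).inv
    have e : ∀ {A B : M} (φ : A ≅ B) (l : B ⟶ 𝟙_ M),
        (φ.hom ⊗ₘ φ.hom) ≫ (l ▷ B ≫ (λ_ B).hom) ≫ φ.inv = (φ.hom ≫ l) ▷ A ≫ (λ_ A).hom ∧
        (φ.hom ⊗ₘ φ.hom) ≫ (B ◁ l ≫ (ρ_ B).hom) ≫ φ.inv = A ◁ (φ.hom ≫ l) ≫ (ρ_ A).hom := by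
      intro A B φ l
      constructor
      · rw [tensorHom_def, comp_whiskerRight]
        simp only [Category.assoc]
        rw [whisker_exchange_assoc, leftUnitor_naturality_assoc,
          Iso.hom_inv_id, Category.comp_id]
      · rw [tensorHom_def', MonoidalCategory.whiskerLeft_comp]
        simp only [Category.assoc]
        rw [← whisker_exchange_assoc, rightUnitor_naturality_assoc,
          Iso.hom_inv_id, Category.comp_id]
    rw [(e (uIso M) lamF).1, (e (uIso M) lamF).2] at h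
    exact h

/-- `K ↦ F ⊗ (F ⊗ ⋯ ⊗ jG K)` -/
abbrev TF (n : ℕ) : LG G ⥤ M := tf (JG M) F n

open GS.StabInput

theorem S_eq : S M = (JG M).obj ((triv LC G).obj RR) := rfl

theorem L_eq : (GS.StabInput.L : M) = F ⊗ (JG M).obj (Kb G) := rfl

theorem lam_eq : lamU M = (uIso M).hom ≫ lamF := rfl

/-- words in `S ⊗ -` and `L ⊗ -` -/
def wd (A : M) : List Bool → M
  | [] => A
  | true :: w => S M ⊗ wd A w
  | false :: w => (GS.StabInput.L : M) ⊗ wd A w

/-- the generators -/
def gen (i : Subgroup G × List Bool) : M := wd M ((JG M).obj (orb i.1)) i.2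

/-- the test objects -/
def GG : ObjectProperty M := fun A => ∃ i, Nonempty (A ≅ gen M i)

end GIn

end Vale.Agent.P241GA
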