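import Vale.Agent.P241GA.In
import Vale.Agent.P241GS.Gen

/-!
# P241G: the objects `F^n ⊗ K`, stabilisation, homotopies and test objects
-/

open CategoryTheory MonoidalCategory Limits
open Functor.LaxMonoidal Functor.OplaxMonoidal

noncomputable section

namespace Vale.Agent.P241GA

open P251.G P251.G.LC P251.H P251.St P241.St P241.Geo P241GR
open P241Z (reg)

universe v u

section Spaces

variable {G : Type} [Group G]

/-- products with a space with trivial action -/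
def glXt (K : GSpace G) (Y : Space) : gl K ⊗ (triv LC G).obj (toLC Y) ≅ gl (xt K Y) :=
  Action.mkIso (pt K Y) fun g => (pt_act K Y g).symm

/-- `1 × d` -/
def gwl (K : GSpace G) {Y Y' : Space} (d : toLC Y ⟶ toLC Y') : gl (xt K Y) ⟶ gl (xt K Y') :=
  glMap (wl K d) (eqv_wl K d)

/-- `f × 1` -/
def gwr {K K' : GSpace G} (f : gl K ⟶ gl K') (Y : Space) : gl (xt K Y) ⟶ gl (xt K' Y) :=
  glMap (wr f.hom Y) (eqv_wr (eqv_hom f) Y)

theorem glXt_gwl (K : GSpace G) {Y Y' : Space} (d : toLC Y ⟶ toLC Y') :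
    (glXt K Y).hom ≫ gwl K d = gl K ◁ (triv LC G).map d ≫ (glXt K Y').hom :=
  Action.hom_ext _ _ (pt_wl K d)

theorem glXt_gwr {K K' : GSpace G} (f : gl K ⟶ gl K') (Y : Space) :
    (glXt K Y).hom ≫ gwr f Y = f ▷ _ ≫ (glXt K' Y).hom :=
  Action.hom_ext _ _ (pt_wr f.hom Y)

/-- the interval -/
abbrev Iv : Space := ofLC II

/-- the inclusion in the cylinder at time `t` -/
def gincl (t : unitInterval) (K : GSpace G) : gl K ⟶ gl (xt K Iv) :=
  (ρ_ (gl K)).inv ≫ gl K ◁ (ε (triv LC G) ≫ (triv LC G).map (point (X := II) t)) ≫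
    (glXt K Iv).hom

theorem app_gincl (t : unitInterval) (K : GSpace G) (x : K.carrier) :
    app (gincl t K).hom (.some x) = .some (x, t) := rfl

variable [Finite G]

/-- `ρ × ⋯ × ρ × K` -/
def sp (K : GSpace G) : ℕ → GSpace G
  | 0 => K
  | k + 1 => (reg G).prod (sp K k)

theorem gfc_sp {K : GSpace G} (h : GFC G K) (k : ℕ) : GFC G (sp K k) := by
  induction k with
  | zero => exact h
  | succ k ih => exact P241.H32.gfc_prod P241Z.gfc_reg ih

/-- `1 × f` -/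
def rgMap {K K' : GSpace G} (f : gl K ⟶ gl K') :
    gl ((reg G).prod K) ⟶ gl ((reg G).prod K') :=
  (glProd (reg G) K).inv ≫ Vg G ◁ f ≫ (glProd (reg G) K').hom

theorem app_rgMap {K K' : GSpace G} (f : gl K ⟶ gl K') (v : G → ℝ) (x : K.carrier) :
    app (rgMap f).hom (.some (v, x)) = (app f.hom (.some x)).map fun y => (v, y) := by
  have h := app_whiskerLeft_smash (L (reg G)) f.hom (.some v) (.some x)
  refine h.trans ?_
  induction app f.hom (.some x) using OnePoint.rec with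
  | infty => rfl
  | coe y => rfl

/-- `1 × ⋯ × 1 × f` -/
def spMap {K K' : GSpace G} (f : gl K ⟶ gl K') : (k : ℕ) → (gl (sp K k) ⟶ gl (sp K' k))
  | 0 => f
  | k + 1 => rgMap (spMap f k)

end Spaces

namespace GIn

variable {G : Type} [Group G] [Finite G] (M : Type u) [Category.{v} M]
    [MonoidalCategory M] [SymmetricCategory M] [MonoidalClosed M] [HasZeroMorphisms M]
    [HasColimitsOfSize.{0, 0} M] [GIn G M]

open GS.StabInput

theorem TF_succ_obj (n : ℕ) (K : LG G) :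
    (TF M (n + 1)).obj K = (F : M) ⊗ (TF M n).obj K := rfl

theorem TF_succ_map (n : ℕ) {K K' : LG G} (f : K ⟶ K') :
    (TF M (n + 1)).map f = (F : M) ◁ (TF M n).map f := rfl

/-- `F^n K ⊗ K' ≅ F^n (K ⊗ K')` -/
def tfR : (n : ℕ) → (K K' : LG G) → ((TF M n).obj K ⊗ (JG M).obj K' ≅ (TF M n).obj (K ⊗ K'))
  | 0, K, K' => Functor.Monoidal.μIso (JG M) K K'
  | n + 1, K, K' => α_ _ _ _ ≪≫ whiskerLeftIso F (tfR n K K')

@[reassoc]
theorem tfR_left (n : ℕ) {K₁ K₂ : LG G} (f : K₁ ⟶ K₂) (K' : LG G) :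
    (TF M n).map f ▷ (JG M).obj K' ≫ (tfR M n K₂ K').hom =
      (tfR M n K₁ K').hom ≫ (TF M n).map (f ▷ K') := by
  induction n with
  | zero => exact μ_natural_left (JG M) f K'
  | succ n ih =>
    change (F ◁ (TF M n).map f) ▷ (JG M).obj K' ≫ (α_ _ _ _).hom ≫ F ◁ (tfR M n K₂ K').hom =
      ((α_ _ _ _).hom ≫ F ◁ (tfR M n K₁ K').hom) ≫ F ◁ (TF M n).map (f ▷ K')
    rw [associator_naturality_middle_assoc, Category.assoc, ← whiskerLeft_comp, ← whiskerLeft_comp,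
      ih]

@[reassoc]
theorem tfR_right (n : ℕ) (K : LG G) {K₁ K₂ : LG G} (f : K₁ ⟶ K₂) :
    (TF M n).obj K ◁ (JG M).map f ≫ (tfR M n K K₂).hom =
      (tfR M n K K₁).hom ≫ (TF M n).map (K ◁ f) := by
  induction n with
  | zero => exact μ_natural_right (JG M) K f
  | succ n ih =>
    change (F ⊗ (TF M n).obj K) ◁ (JG M).map f ≫ (α_ _ _ _).hom ≫ F ◁ (tfR M n K K₂).hom =
      ((α_ _ _ _).hom ≫ F ◁ (tfR M n K K₁).hom) ≫ F ◁ (TF M n).map (K ◁ f)
    rw [associator_naturality_right_assoc, Category.assoc, ← whiskerLeft_comp, ← whiskerLeft_comp,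
      ih]

theorem tfR_unit (n : ℕ) (K : LG G) :
    (ρ_ ((TF M n).obj K)).inv ≫ (TF M n).obj K ◁ ε (JG M) ≫ (tfR M n K (𝟙_ _)).hom =
      (TF M n).map (ρ_ K).inv := by
  induction n with
  | zero => exact Functor.LaxMonoidal.right_unitality_inv (JG M) K
  | succ n ih =>
    change (ρ_ (F ⊗ (TF M n).obj K)).inv ≫ (F ⊗ (TF M n).obj K) ◁ ε (JG M) ≫ (α_ _ _ _).hom ≫
      F ◁ (tfR M n K (𝟙_ _)).hom = F ◁ (TF M n).map (ρ_ K).inv
    rw [← ih, whiskerLeft_comp, whiskerLeft_comp, associator_naturality_right_assoc,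
      whiskerLeft_rightUnitor_inv, Category.assoc]

/-- `K' ⊗ F^n K ≅ F^n (K' ⊗ K)` -/
def tfL (n : ℕ) (K' K : LG G) : (JG M).obj K' ⊗ (TF M n).obj K ≅ (TF M n).obj (K' ⊗ K) :=
  β_ _ _ ≪≫ tfR M n K K' ≪≫ (TF M n).mapIso (β_ K K')

theorem tfL_zero (K' K : LG G) : (tfL M 0 K' K).hom = μ (JG M) K' K := by
  change (β_ _ _).hom ≫ μ (JG M) K K' ≫ (JG M).map (β_ K K').hom = _
  rw [Functor.LaxBraided.braided, SymmetricCategory.symmetry_assoc]

@[reassoc]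
theorem tfL_right (n : ℕ) (K' : LG G) {K₁ K₂ : LG G} (f : K₁ ⟶ K₂) :
    (JG M).obj K' ◁ (TF M n).map f ≫ (tfL M n K' K₂).hom =
      (tfL M n K' K₁).hom ≫ (TF M n).map (K' ◁ f) := by
  simp only [tfL, Iso.trans_hom, Functor.mapIso_hom, Category.assoc]
  rw [BraidedCategory.braiding_naturality_right_assoc, tfR_left_assoc, ← Functor.map_comp,
    ← Functor.map_comp, BraidedCategory.braiding_naturality_left]

@[reassoc]
theorem tfL_left (n : ℕ) {K₁ K₂ : LG G} (f : K₁ ⟶ K₂) (K : LG G) :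
    (JG M).map f ▷ (TF M n).obj K ≫ (tfL M n K₂ K).hom =
      (tfL M n K₁ K).hom ≫ (TF M n).map (f ▷ K) := by
  simp only [tfL, Iso.trans_hom, Functor.mapIso_hom, Category.assoc]
  rw [BraidedCategory.braiding_naturality_left_assoc, tfR_right_assoc, ← Functor.map_comp,
    ← Functor.map_comp, BraidedCategory.braiding_naturality_right]

/-- `F^n K ⊗ Y ≅ F^n (K × Y)` -/
def xtIso (n : ℕ) (K : GSpace G) (Y : Space) :
    (TF M n).obj (gl K) ⊗ (J M).obj (toLC Y) ≅ (TF M n).obj (gl (xt K Y)) :=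
  tfR M n (gl K) ((triv LC G).obj (toLC Y)) ≪≫ (TF M n).mapIso (glXt K Y)

@[reassoc]
theorem xtIso_gwl (n : ℕ) (K : GSpace G) {Y Y' : Space} (d : toLC Y ⟶ toLC Y') :
    (TF M n).obj (gl K) ◁ (J M).map d ≫ (xtIso M n K Y').hom =
      (xtIso M n K Y).hom ≫ (TF M n).map (gwl K d) := by
  change (TF M n).obj (gl K) ◁ (JG M).map ((triv LC G).map d) ≫ (tfR M n _ _).hom ≫ _ =
    ((tfR M n _ _).hom ≫ (TF M n).map (glXt K Y).hom) ≫ _
  rw [tfR_right_assoc, Category.assoc, ← Functor.map_comp (TF M n) (glXt K Y).hom, glXt_gwl,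
    Functor.map_comp]
  rfl

@[reassoc]
theorem xtIso_gwr (n : ℕ) {K K' : GSpace G} (f : gl K ⟶ gl K') (Y : Space) :
    (TF M n).map f ▷ (J M).obj (toLC Y) ≫ (xtIso M n K' Y).hom =
      (xtIso M n K Y).hom ≫ (TF M n).map (gwr f Y) := by
  change (TF M n).map f ▷ (JG M).obj ((triv LC G).obj (toLC Y)) ≫ (tfR M n _ _).hom ≫ _ =
    ((tfR M n _ _).hom ≫ (TF M n).map (glXt K Y).hom) ≫ _
  rw [tfR_left_assoc, Category.assoc, ← Functor.map_comp (TF M n) (glXt K Y).hom, glXt_gwr,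
    Functor.map_comp]
  rfl

theorem inc_xtIso (n : ℕ) (K : GSpace G) (t : unitInterval) :
    inc t ((TF M n).obj (gl K)) ≫ (xtIso M n K Iv).hom = (TF M n).map (gincl t K) := by
  change ((ρ_ _).inv ≫ (TF M n).obj (gl K) ◁ ((ε (JG M) ≫ (JG M).map (ε (triv LC G))) ≫
    (JG M).map ((triv LC G).map (point (X := II) t)))) ≫ (tfR M n _ _).hom ≫
      (TF M n).map (glXt K Iv).hom = _
  rw [Category.assoc (ε (JG M)), ← Functor.map_comp, whiskerLeft_comp, Category.assoc,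
    Category.assoc, tfR_right_assoc, gincl, Functor.map_comp, Functor.map_comp, ← tfR_unit]
  simp only [Category.assoc]

variable {M} in
/-- homotopies out of `F^n K` -/
theorem mHtpy_iff {n : ℕ} {K : GSpace G} {X : M} (f g : (TF M n).obj (gl K) ⟶ X) :
    MHtpy f g ↔ ∃ H : (TF M n).obj (gl (xt K Iv)) ⟶ X,
      (TF M n).map (gincl 0 K) ≫ H = f ∧ (TF M n).map (gincl 1 K) ≫ H = g := by
  constructor
  · rintro ⟨H, h0, h1⟩
    refine ⟨(xtIso M n K Iv).inv ≫ H, ?_, ?_⟩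
    · rw [← inc_xtIso, Category.assoc, Iso.hom_inv_id_assoc]
      exact h0
    · rw [← inc_xtIso, Category.assoc, Iso.hom_inv_id_assoc]
      exact h1
  · rintro ⟨H, h0, h1⟩
    exact ⟨(xtIso M n K Iv).hom ≫ H,
      (Category.assoc _ _ _).symm.trans ((congrArg (· ≫ H) (inc_xtIso M n K 0)).trans h0),
      (Category.assoc _ _ _).symm.trans ((congrArg (· ≫ H) (inc_xtIso M n K 1)).trans h1)⟩

/-- `(F ⊗ S^ρ) ⊗ F^n K ≅ F^{n+1} (ρ × K)` -/
def vIso (n : ℕ) (K : GSpace G) : ((F : M) ⊗ (JG M).obj (Vg G)) ⊗ (TF M n).obj (gl K) ≅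
    (TF M (n + 1)).obj (gl ((reg G).prod K)) :=
  α_ _ _ _ ≪≫ whiskerLeftIso F (tfL M n (Vg G) (gl K) ≪≫ (TF M n).mapIso (glProd (reg G) K))

/-- the stabilisation `F^{n+1} (ρ × K) ⟶ F^n K` -/
def stb (n : ℕ) (K : GSpace G) :
    (TF M (n + 1)).obj (gl ((reg G).prod K)) ⟶ (TF M n).obj (gl K) :=
  (vIso M n K).inv ≫ lamF ▷ (TF M n).obj (gl K) ≫ (λ_ _).hom

/-- `U ⊗ F^n K ≅ F^{n+1} (ρ × K)` -/
def csIso (n : ℕ) (K : GSpace G) :
    U M ⊗ (TF M n).obj (gl K) ≅ (TF M (n + 1)).obj (gl ((reg G).prod K)) :=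
  whiskerRightIso (uIso M) _ ≪≫ vIso M n K

theorem csIso_stb (n : ℕ) (K : GSpace G) :
    (csIso M n K).hom ≫ stb M n K = lamU M ▷ (TF M n).obj (gl K) ≫ (λ_ _).hom := by
  change ((uIso M).hom ▷ _ ≫ (vIso M n K).hom) ≫ (vIso M n K).inv ≫ _ =
    ((uIso M).hom ≫ lamF) ▷ _ ≫ _
  rw [Category.assoc, Iso.hom_inv_id_assoc, comp_whiskerRight, Category.assoc]

theorem stb_zero (K : GSpace G) : stb M 0 K =
    F ◁ (JG M).map (glProd (reg G) K).inv ≫ gev (JG M) F lamF (gl K) := by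
  have h : (tfL M 0 (Vg G) (gl K)).inv = δ (JG M) (Vg G) (gl K) :=
    (Category.comp_id _).symm.trans ((tfL M 0 (Vg G) (gl K)).inv_comp_eq.mpr
      ((Functor.Monoidal.μ_δ (JG M) (Vg G) (gl K)).symm.trans
        (congrArg (· ≫ δ (JG M) (Vg G) (gl K)) (tfL_zero M (Vg G) (gl K)).symm)))
  refine (congrArg (fun z => (F ◁ ((JG M).map (glProd (reg G) K).inv ≫ z) ≫ (α_ _ _ _).inv) ≫
    lamF ▷ (JG M).obj (gl K) ≫ (λ_ _).hom) h).trans ?_
  rw [whiskerLeft_comp, gev]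
  simp only [Category.assoc]

@[reassoc]
theorem stb_nat (n : ℕ) {K K' : GSpace G} (f : gl K ⟶ gl K') :
    (TF M (n + 1)).map (rgMap f) ≫ stb M n K' = stb M n K ≫ (TF M n).map f := by
  have h : ((F : M) ⊗ (JG M).obj (Vg G)) ◁ (TF M n).map f ≫ (vIso M n K').hom =
      (vIso M n K).hom ≫ (TF M (n + 1)).map (rgMap f) := by
    change _ ≫ (α_ _ _ _).hom ≫ F ◁ ((tfL M n (Vg G) (gl K')).hom ≫
      (TF M n).map (glProd (reg G) K').hom) = ((α_ _ _ _).hom ≫ F ◁ ((tfL M n (Vg G) (gl K)).hom ≫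
      (TF M n).map (glProd (reg G) K).hom)) ≫ F ◁ (TF M n).map ((glProd (reg G) K).inv ≫
        Vg G ◁ f ≫ (glProd (reg G) K').hom)
    rw [associator_naturality_right_assoc, Category.assoc, ← whiskerLeft_comp, ← whiskerLeft_comp,
      tfL_right_assoc, Category.assoc, ← Functor.map_comp, ← Functor.map_comp,
      Iso.hom_inv_id_assoc]
  rw [← cancel_epi (vIso M n K).hom, ← reassoc_of% h, stb, stb, Iso.hom_inv_id_assoc,
    Category.assoc, Category.assoc, Iso.hom_inv_id_assoc, whisker_exchange_assoc,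
    leftUnitor_naturality]

/-- the iterated stabilisation -/
def stk (n : ℕ) (K : GSpace G) :
    (k : ℕ) → ((TF M (n + k)).obj (gl (sp K k)) ⟶ (TF M n).obj (gl K))
  | 0 => 𝟙 _
  | k + 1 => stb M (n + k) (sp K k) ≫ stk n K k

@[reassoc]
theorem stk_nat (n : ℕ) {K K' : GSpace G} (f : gl K ⟶ gl K') (k : ℕ) :
    (TF M (n + k)).map (spMap f k) ≫ stk M n K' k = stk M n K k ≫ (TF M n).map f := by
  induction k with
  | zero => exact (Category.comp_id _).trans (Category.id_comp _).symm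
  | succ k ih =>
    exact ((stb_nat_assoc M (n + k) (spMap f k) (stk M n K' k)).trans
      (congrArg (stb M (n + k) (sp K k) ≫ ·) ih)).trans (Category.assoc _ _ _).symm

theorem exists_pwIso (n : ℕ) (K : GSpace G) (k : ℕ) :
    ∃ e : pwM k ((TF M n).obj (gl K)) ≅ (TF M (n + k)).obj (gl (sp K k)),
      e.hom ≫ stk M n K k = tkM k ((TF M n).obj (gl K)) := by
  induction k with
  | zero => exact ⟨Iso.refl _, Category.id_comp _⟩
  | succ k ih =>
    obtain ⟨e, he⟩ := ih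
    refine ⟨whiskerLeftIso (U M) e ≪≫ csIso M (n + k) (sp K k), ?_⟩
    change (U M ◁ e.hom ≫ (csIso M (n + k) (sp K k)).hom) ≫ stb M (n + k) (sp K k) ≫ stk M n K k =
      (lamU M ▷ _ ≫ (λ_ _).hom) ≫ tkM k _
    rw [Category.assoc, ← Category.assoc (csIso M (n + k) (sp K k)).hom, csIso_stb, Category.assoc,
      whisker_exchange_assoc, leftUnitor_naturality_assoc, he, Category.assoc]

/-- `S ⊗ F^n K ≅ F^n (ℝ ⊗ K)` -/
def sIso (n : ℕ) (K : LG G) :
    S M ⊗ (TF M n).obj K ≅ (TF M n).obj ((triv LC G).obj RR ⊗ K) := tfL M n _ K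

/-- `L ⊗ F^n K ≅ F^{n+1} (ρ' ⊗ K)` -/
def lIso (n : ℕ) (K : LG G) :
    (GS.StabInput.L : M) ⊗ (TF M n).obj K ≅ (TF M (n + 1)).obj (Kb G ⊗ K) :=
  α_ _ _ _ ≪≫ whiskerLeftIso F (tfL M n (Kb G) K)

theorem exists_tf (i : Subgroup G × List Bool) :
    ∃ (n : ℕ) (K : LG G), Nonempty (gen M i ≅ (TF M n).obj K) := by
  obtain ⟨H, w⟩ := i
  induction w with
  | nil => exact ⟨0, orb H, ⟨Iso.refl _⟩⟩
  | cons b w ih =>
    obtain ⟨n, K, ⟨e⟩⟩ := ih
    cases b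
    · exact ⟨n + 1, _, ⟨whiskerLeftIso _ e ≪≫ lIso M n K⟩⟩
    · exact ⟨n, _, ⟨whiskerLeftIso _ e ≪≫ sIso M n K⟩⟩

omit [MonoidalCategory M] [SymmetricCategory M] [MonoidalClosed M] [HasZeroMorphisms M] in
variable {M} in
theorem finFactor_of_iso {A B : M} (e : A ≅ B) (h : FinFactor B) : FinFactor A := by
  intro ι X f
  obtain ⟨s, g, hg⟩ := h X (e.inv ≫ f)
  exact ⟨s, e.hom ≫ g, by rw [Category.assoc, hg, Iso.hom_inv_id_assoc]⟩

instance : IsTest (GG M) where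
  of_iso e := fun ⟨i, ⟨f⟩⟩ => ⟨i, ⟨e.symm ≪≫ f⟩⟩
  susp := fun ⟨i, ⟨f⟩⟩ => ⟨(i.1, true :: i.2), ⟨whiskerLeftIso _ f⟩⟩
  desusp := fun ⟨i, ⟨f⟩⟩ => ⟨(i.1, false :: i.2), ⟨whiskerLeftIso _ f⟩⟩
  fin := fun ⟨i, ⟨f⟩⟩ => by
    obtain ⟨n, K, ⟨e⟩⟩ := exists_tf M i
    exact finFactor_of_iso (f ≪≫ e) (fin n K)

theorem finFactor_pw (n : ℕ) (K : GSpace G) (k : ℕ) :
    FinFactor (pwM k ((TF M n).obj (gl K))) := by
  obtain ⟨e, -⟩ := exists_pwIso M n K k
  exact finFactor_of_iso e (fin _ _)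

end GIn

end Vale.Agent.P241GA
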